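import Vale.Agent.P274.Polydisc
import Mathlib.Topology.Algebra.ConstMulAction
import Mathlib.Topology.Connected.LocallyPathConnected

/-!
Bounded generalised analytic polyhedra with semialgebraic planar sets and a properly
discontinuous cocompact group of biholomorphisms are polydiscs.
-/

open Filter Metric Set Function Topology

namespace Vale.Agent.Results.P274.AnalyticPolyhedra

/-- Let `U` be a bounded domain in `ℂ^n`, with closure in an open set `W`, cut out as a component
of `{z ∈ W | ∀ j, f j z ∈ V j}` by holomorphic functions and open semialgebraic planar sets.  If a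
group acts on `U` by biholomorphisms properly discontinuously with compact quotient, then `U` is
biholomorphic to the polydisc. -/
theorem result (n m : ℕ) (W : Set (Fin n → ℂ)) (hW : IsOpen W)
    (f : Fin m → (Fin n → ℂ) → ℂ) (hf : ∀ j, AnalyticOnNhd ℂ (f j) W)
    (V : Fin m → Set ℂ) (hV : ∀ j, IsOpen (V j))
    (hVs : ∀ j, Vale.Agent.P274.IsSemialgebraic (V j))
    (U : Set (Fin n → ℂ)) (hUo : IsOpen U) (hUc : IsConnected U)
    (hUb : Bornology.IsBounded U) (hUW : closure U ⊆ W)
    (hUf : ∀ z ∈ U, ∀ j, f j z ∈ V j) (hedge : ∀ z ∈ frontier U, ∃ j, f j z ∉ V j)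
    (Γ : Type) [Group Γ] [MulAction Γ ↥U] [ProperlyDiscontinuousSMul Γ ↥U]
    [CompactSpace (Quotient (MulAction.orbitRel Γ ↥U))]
    (hhol : ∀ g : Γ, ∃ A : (Fin n → ℂ) → (Fin n → ℂ),
      DifferentiableOn ℂ A U ∧ ∀ z : ↥U, A z = ((g • z : ↥U) : Fin n → ℂ)) :
    ∃ F G : (Fin n → ℂ) → (Fin n → ℂ),
      DifferentiableOn ℂ F U ∧ MapsTo F U {w | ∀ i, ‖w i‖ < 1} ∧
      DifferentiableOn ℂ G {w | ∀ i, ‖w i‖ < 1} ∧ MapsTo G {w | ∀ i, ‖w i‖ < 1} U ∧
      (∀ z ∈ U, G (F z) = z) ∧
      (∀ w : Fin n → ℂ, (∀ i, ‖w i‖ < 1) → F (G w) = w) := by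
  classical
  choose bad hbad hreg using fun j => (hVs j).regular
  choose A hA hAeq using hhol
  obtain ⟨z₀, hz₀⟩ := hUc.nonempty
  have hz₀W : z₀ ∈ W := hUW (subset_closure hz₀)
  let D : Vale.Agent.P274.Dom n m :=
    { W := connectedComponentIn W z₀
      U := U
      f := f
      V := V
      bad := bad
      isOpen_W := hW.connectedComponentIn
      preconnected_W := isPreconnected_connectedComponentIn
      analytic_f := fun j z hz => hf j z (connectedComponentIn_subset W z₀ hz)
      isOpen_V := hV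
      finite_bad := hbad
      regular_V := hreg
      isOpen_U := hUo
      preconnected_U := hUc.isPreconnected
      nonempty_U := hUc.nonempty
      bounded_U := hUb
      closure_subset := hUc.isPreconnected.closure.subset_connectedComponentIn
        (subset_closure hz₀) hUW
      maps := hUf
      edge := fun z hz hzU => hedge z (by rw [hUo.frontier_eq]; exact ⟨hz, hzU⟩) }
  have hcont : ∀ g : Γ, Continuous fun z : ↥U => g • z := by
    intro g
    have h1 : Continuous fun z : ↥U => A g (z : Fin n → ℂ) :=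
      continuousOn_iff_continuous_domRestrict.1 (hA g).continuousOn
    refine continuous_induced_rng.2 (h1.congr fun z => ?_)
    exact hAeq g z
  have : ContinuousConstSMul Γ ↥U := ⟨hcont⟩
  -- a compact set meeting every orbit
  have hball : ∀ z : ↥U, ∃ r > 0, closedBall (z : Fin n → ℂ) r ⊆ U := fun z =>
    Metric.nhds_basis_closedBall.mem_iff.1 (hUo.mem_nhds z.2)
  choose r hr hrU using hball
  set B : ↥U → Set ↥U := fun z => Subtype.val ⁻¹' ball (z : Fin n → ℂ) (r z)
  let π : ↥U → Quotient (MulAction.orbitRel Γ ↥U) := Quotient.mk''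
  have hopen : ∀ z, IsOpen (π '' B z) := fun z =>
    isOpenMap_quotient_mk'_mul _ (isOpen_ball.preimage continuous_subtype_val)
  obtain ⟨t, ht⟩ := isCompact_univ.elim_finite_subcover (fun z => π '' B z) hopen fun q _ => by
    induction q using Quotient.inductionOn' with
    | h z => exact mem_iUnion.2 ⟨z, z, mem_ball_self (hr z), rfl⟩
  let Ω : Vale.Agent.P274.Orbit D :=
    { G := Γ
      act := fun g => A g
      back := fun g => A g⁻¹
      maps := fun g z hz => by rw [hAeq g ⟨z, hz⟩]; exact (g • (⟨z, hz⟩ : ↥U)).2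
      maps_back := fun g z hz => by rw [hAeq g⁻¹ ⟨z, hz⟩]; exact (g⁻¹ • (⟨z, hz⟩ : ↥U)).2
      diff := fun g => hA g
      diff_back := fun g => hA g⁻¹
      back_act := fun g z hz => by
        rw [hAeq g ⟨z, hz⟩, hAeq g⁻¹, inv_smul_smul]
      act_back := fun g z hz => by
        rw [hAeq g⁻¹ ⟨z, hz⟩, hAeq g, smul_inv_smul]
      finite := fun K L hK hL hKU hLU => by
        have hsub : ∀ K : Set (Fin n → ℂ), IsCompact K → K ⊆ U →
            IsCompact (Subtype.val ⁻¹' K : Set ↥U) := fun K hK hKU => by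
          rw [Subtype.isCompact_iff, Subtype.image_preimage_coe, inter_eq_right.2 hKU]
          exact hK
        refine (ProperlyDiscontinuousSMul.finite_disjoint_inter_image (Γ := Γ)
          (hsub K hK hKU) (hsub L hL hLU)).subset ?_
        rintro g ⟨z, hz, hgz⟩
        refine ⟨g • ⟨z, hKU hz⟩, ⟨⟨z, hKU hz⟩, hz, rfl⟩, ?_⟩
        rw [mem_preimage, ← hAeq g ⟨z, hKU hz⟩]
        exact hgz
      K := ⋃ z ∈ t, closedBall (z : Fin n → ℂ) (r z)
      compact_K := t.isCompact_biUnion fun z _ => isCompact_closedBall _ _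
      K_subset := iUnion₂_subset fun z _ => hrU z
      cover := fun z hz => by
        obtain ⟨a, hat, w, hw, hwz⟩ := mem_iUnion₂.1 (ht (mem_univ (π ⟨z, hz⟩)))
        obtain ⟨g, hg⟩ : w ∈ MulAction.orbit Γ (⟨z, hz⟩ : ↥U) :=
          MulAction.orbitRel_apply.1 (Quotient.exact' hwz)
        refine ⟨g, mem_biUnion hat ?_⟩
        rw [hAeq g ⟨z, hz⟩]
        exact ball_subset_closedBall ((congrArg Subtype.val hg).symm ▸ hw) }
  obtain ⟨F, G, h1, h2, h3, h4, h5, h6⟩ := Ω.biholomorphic
  have heq : {w : Fin n → ℂ | ∀ i, ‖w i‖ < 1} = ball 0 1 := by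
    ext w
    rw [mem_ofPred_eq, mem_ball_zero_iff, pi_norm_lt_iff one_pos]
  refine ⟨F, G, h1, heq ▸ h2, heq ▸ h3, heq ▸ h4, h5, fun w hw => h6 w ?_⟩
  rw [← heq]
  exact hw

end Vale.Agent.Results.P274.AnalyticPolyhedra
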