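import Vale.Agent.P274.Full.Main
import Vale.Agent.P274.Full.Alg.Main
import Vale.Agent.P274.Full.Cayley.Basic
import Vale.Agent.P274.Full.Horn.Main
import Vale.Agent.P274.Full.Inner.Main
import Vale.Agent.P274.Full.Lie.Final
import Vale.Agent.P274.Full.Patch.Main
import Vale.Agent.P274.Full.Pieces.Main
import Vale.Agent.P274.Full.SA.Interior
import Vale.Agent.P274.Full.SA.Proj
import Vale.Agent.P274.Full.SA.Tail
import Vale.Agent.P274.Full.Scaling.Main
import Vale.Agent.P274.Full.Sym.Main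
import Vale.Agent.P274.Full.Taut.Disc
import Vale.Agent.P274.Full.Taut.Hull
import Vale.Agent.P274.Full.Taut.Taut

/-!
Bounded semialgebraic domains in affine varieties with a properly discontinuous cocompact group of
biholomorphisms are bounded symmetric domains.
-/

open Filter Set Function Topology
open Vale.Agent.P274.Full

namespace Vale.Agent.Results.P274.BoundedDomainSymmetric

/-- Let `Z ⊆ ℂ^N` be the common zero set of finitely many polynomials and `U ⊆ Z` a connected,
relatively open, bounded subset, semialgebraic in the real and imaginary parts of the coordinates.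
If a group acts on `U` properly discontinuously with compact quotient by maps that are locally
restrictions of holomorphic maps, then `U` is biholomorphic to a bounded symmetric domain. -/
theorem result (N : ℕ) (eqs : Finset (MvPolynomial (Fin N) ℂ))
    (U : Set (EuclideanSpace ℂ (Fin N)))
    (hUo : ∃ O, IsOpen O ∧ U = {z | ∀ p ∈ eqs, MvPolynomial.eval (fun i => z i) p = 0} ∩ O)
    (hUc : IsConnected U) (hUb : Bornology.IsBounded U)
    (hUs : ∃ (l : ℕ) (P : Fin l → MvPolynomial (Fin N ⊕ Fin N) ℝ) (T : Set (Fin l → SignType)),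
      ∀ z : EuclideanSpace ℂ (Fin N), z ∈ U ↔ (fun i => SignType.sign (MvPolynomial.eval
        (Sum.elim (fun j => (z j).re) fun j => (z j).im) (P i))) ∈ T)
    (Γ : Type) [Group Γ] [MulAction Γ ↥U] [ProperlyDiscontinuousSMul Γ ↥U]
    [CompactSpace (Quotient (MulAction.orbitRel Γ ↥U))]
    (hhol : ∀ g : Γ, ∀ x : ↥U, ∃ (W : Set (EuclideanSpace ℂ (Fin N)))
      (A : EuclideanSpace ℂ (Fin N) → EuclideanSpace ℂ (Fin N)), IsOpen W ∧
      (x : EuclideanSpace ℂ (Fin N)) ∈ W ∧ DifferentiableOn ℂ A W ∧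
      ∀ y : ↥U, (y : EuclideanSpace ℂ (Fin N)) ∈ W →
        A y = ((g • y : ↥U) : EuclideanSpace ℂ (Fin N))) :
    ∃ (n : ℕ) (D : Set (EuclideanSpace ℂ (Fin n))),
      (IsOpen D ∧ IsConnected D ∧ Bornology.IsBounded D ∧
        ∀ p ∈ D, ∃ s : EuclideanSpace ℂ (Fin n) → EuclideanSpace ℂ (Fin n),
          DifferentiableOn ℂ s D ∧ MapsTo s D D ∧ (∀ z ∈ D, s (s z) = z) ∧ s p = p ∧
            ∀ᶠ z in 𝓝 p, s z = z → z = p) ∧
      ∃ (f : EuclideanSpace ℂ (Fin N) → EuclideanSpace ℂ (Fin n))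
        (g : EuclideanSpace ℂ (Fin n) → EuclideanSpace ℂ (Fin N)),
        (∀ x ∈ U, ∃ (W : Set (EuclideanSpace ℂ (Fin N)))
          (F : EuclideanSpace ℂ (Fin N) → EuclideanSpace ℂ (Fin n)), IsOpen W ∧ x ∈ W ∧
            DifferentiableOn ℂ F W ∧ EqOn f F (W ∩ U)) ∧
        MapsTo f U D ∧ DifferentiableOn ℂ g D ∧ MapsTo g D U ∧
        (∀ z ∈ U, g (f z) = z) ∧ ∀ w ∈ D, f (g w) = w := by
  obtain ⟨n, B, hB, hb⟩ := main (patch saProj Alg.alg (Pieces.pieces saProj) taut)
    (inner (horn saProj) disc) (scaling saProj saInterior saTail taut hull) Lie.lie sym cayley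
    N eqs _ U rfl hUo hUc hUb hUs Γ hhol
  exact ⟨n, B, hB, hb⟩

end Vale.Agent.Results.P274.BoundedDomainSymmetric
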