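import Vale.Agent.P274.Surface.Main

/-!
Bounded semialgebraic domains in `ℂ²` with a properly discontinuous cocompact group of
biholomorphisms are balls or bidiscs.
-/

open Filter Metric Set Function Topology

namespace Vale.Agent.Results.P274.SemialgebraicSurfaces

/-- Let `U` be a bounded domain in `ℂ²`, semialgebraic in the real and imaginary parts of the
coordinates. If a group acts on `U` by biholomorphisms properly discontinuously with compact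
quotient, then `U` is biholomorphic to the unit ball or to the unit bidisc. -/
theorem result (U : Set (ℂ × ℂ)) (hUo : IsOpen U) (hUc : IsConnected U)
    (hUb : Bornology.IsBounded U)
    (hUs : ∃ (k : ℕ) (P : Fin k → MvPolynomial (Fin 4) ℝ) (T : Set (Fin k → SignType)),
      ∀ z : ℂ × ℂ, z ∈ U ↔
        (fun i => SignType.sign (MvPolynomial.eval ![z.1.re, z.1.im, z.2.re, z.2.im] (P i))) ∈ T)
    (Γ : Type) [Group Γ] [MulAction Γ ↥U] [ProperlyDiscontinuousSMul Γ ↥U]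
    [CompactSpace (Quotient (MulAction.orbitRel Γ ↥U))]
    (hhol : ∀ g : Γ, ∃ A : ℂ × ℂ → ℂ × ℂ,
      DifferentiableOn ℂ A U ∧ ∀ z : ↥U, A z = ((g • z : ↥U) : ℂ × ℂ)) :
    (∃ F G : ℂ × ℂ → ℂ × ℂ,
      DifferentiableOn ℂ F U ∧ MapsTo F U {w | ‖w.1‖ ^ 2 + ‖w.2‖ ^ 2 < 1} ∧
      DifferentiableOn ℂ G {w | ‖w.1‖ ^ 2 + ‖w.2‖ ^ 2 < 1} ∧
      MapsTo G {w | ‖w.1‖ ^ 2 + ‖w.2‖ ^ 2 < 1} U ∧ (∀ z ∈ U, G (F z) = z) ∧
      (∀ w : ℂ × ℂ, ‖w.1‖ ^ 2 + ‖w.2‖ ^ 2 < 1 → F (G w) = w)) ∨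
    (∃ F G : ℂ × ℂ → ℂ × ℂ,
      DifferentiableOn ℂ F U ∧ MapsTo F U {w | ‖w.1‖ < 1 ∧ ‖w.2‖ < 1} ∧
      DifferentiableOn ℂ G {w | ‖w.1‖ < 1 ∧ ‖w.2‖ < 1} ∧
      MapsTo G {w | ‖w.1‖ < 1 ∧ ‖w.2‖ < 1} U ∧ (∀ z ∈ U, G (F z) = z) ∧
      (∀ w : ℂ × ℂ, ‖w.1‖ < 1 ∧ ‖w.2‖ < 1 → F (G w) = w)) := by
  rcases Vale.Agent.P274.Surface.ball_or_bidisc U hUo hUc hUb hUs Γ hhol with h | h
  · left
    obtain ⟨F, G, hF, hFm, hG, hGm, hGF, hFG⟩ := h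
    let e : EuclideanSpace ℂ (Fin 2) ≃L[ℂ] ℂ × ℂ :=
      (EuclideanSpace.equiv (Fin 2) ℂ).trans (ContinuousLinearEquiv.finTwoArrow ℂ ℂ)
    have he : ∀ v, e v ∈ {w : ℂ × ℂ | ‖w.1‖ ^ 2 + ‖w.2‖ ^ 2 < 1} ↔
        v ∈ ball (0 : EuclideanSpace ℂ (Fin 2)) 1 := by
      intro v
      have hv : ‖v‖ ^ 2 = ‖(e v).1‖ ^ 2 + ‖(e v).2‖ ^ 2 := by
        rw [EuclideanSpace.norm_sq_eq, Fin.sum_univ_two]
        rfl
      rw [mem_ofPred_eq, ← hv, mem_ball_zero_iff, sq_lt_one_iff₀ (norm_nonneg v)]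
    have hes : ∀ w ∈ {w : ℂ × ℂ | ‖w.1‖ ^ 2 + ‖w.2‖ ^ 2 < 1}, e.symm w ∈ ball 0 1 :=
      fun w hw => (he _).1 (by rwa [e.apply_symm_apply])
    refine ⟨e ∘ F, G ∘ e.symm, e.differentiable.comp_differentiableOn hF,
      fun z hz => (he _).2 (hFm hz), hG.comp e.symm.differentiable.differentiableOn hes,
      fun w hw => hGm (hes w hw), fun z hz => ?_, fun w hw => ?_⟩
    · simp [hGF z hz]
    · simp [hFG _ (hes w hw)]
  · right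
    have heq : ball (0 : ℂ × ℂ) 1 = {w | ‖w.1‖ < 1 ∧ ‖w.2‖ < 1} := by
      ext w
      simp [Prod.norm_def, mem_ball_zero_iff]
    rw [Vale.Agent.P274.Surface.Biholo, heq] at h
    exact h

end Vale.Agent.Results.P274.SemialgebraicSurfaces
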